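import Mathlib
import Vale.Agent.P150.Model
import Vale.Agent.P150.Crit23.Rot

/-!
P146: repeated Gaussian integration by parts along cycles of the complete graph.
The coefficient of the free energy on a cycle monomial is the product `⟨∏ spins⟩ = 1` of the main
chain minus terms in which the cycle is split between at least two replicas.
-/

open MeasureTheory ProbabilityTheory Finset Function
open Vale.Agent.P150 Vale.Agent.P150.Crit23

namespace Vale.Agent.P146

variable {n m b : ℕ}

/-- Injective cycles of length `m + 3`. -/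
abbrev Tup (n m : ℕ) : Type := {v : Fin (m + 3) → Fin n // Injective v}

/-- The pair of two distinct sites. -/
def edge (a b : Fin n) (h : a ≠ b) : Pair n :=
  if h' : a < b then ⟨(a, b), h'⟩ else ⟨(b, a), lt_of_le_of_ne (not_lt.1 h') h.symm⟩

theorem edge_cases (a b : Fin n) (h : a ≠ b) :
    (edge a b h).1 = (a, b) ∨ (edge a b h).1 = (b, a) := by
  unfold edge
  split <;> simp

theorem edge_inj {a b c d : Fin n} {h : a ≠ b} {h' : c ≠ d} (e : edge a b h = edge c d h') :
    (a = c ∧ b = d) ∨ (a = d ∧ b = c) := by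
  have e' := congrArg Subtype.val e
  rcases edge_cases a b h with h1 | h1 <;> rcases edge_cases c d h' with h2 | h2 <;>
    rw [h1, h2, Prod.mk.injEq] at e' <;> tauto

theorem succ_ne (l : Fin (m + 3)) : l + 1 ≠ l := by
  intro h
  simpa using h

theorem succ_succ_ne (l : Fin (m + 3)) : l + 1 + 1 ≠ l := by
  intro h
  rw [add_assoc] at h
  simp [Fin.ext_iff, Fin.val_add, Nat.mod_eq_of_lt] at h

/-- The `l`-th edge of a cycle. -/
def ed (v : Tup n m) (l : Fin (m + 3)) : Pair n :=
  edge (v.1 l) (v.1 (l + 1)) fun h => succ_ne l (v.2 h).symm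

theorem ed_inj (v : Tup n m) : Injective (ed v) := by
  intro l l' h
  rcases edge_inj h with ⟨h1, -⟩ | ⟨h1, h2⟩
  · exact v.2 h1
  · exact absurd (by rw [← v.2 h1, v.2 h2]) (succ_succ_ne l')

/-- The product of the two spins of the `l`-th edge. -/
def sgn (v : Fin (m + 3) → Fin n) (l : Fin (m + 3)) (x : Conf n) : ℝ :=
  spin (x (v l)) * spin (x (v (l + 1)))

theorem abs_sgn (v : Fin (m + 3) → Fin n) (l : Fin (m + 3)) (x : Conf n) : |sgn v l x| = 1 := by
  simp [sgn, abs_mul, abs_spin]

theorem hv_ed (c : ℝ) (v : Tup n m) (l : Fin (m + 3)) (x : Conf n) :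
    hv n c x (ed v l) = c * sgn v.1 l x := by
  simp only [hv, sgn, ed]
  rcases edge_cases (v.1 l) (v.1 (l + 1)) (fun h => succ_ne l (v.2 h).symm) with h | h <;> rw [h] <;>
    ring

/-- Gibbs average. -/
noncomputable def gav (c : ℝ) (f : Conf n → ℝ) (g : Pair n → ℝ) : ℝ :=
  ∑ x, soft (hv n c) g x * f x

theorem abs_gav_le (c : ℝ) {f : Conf n → ℝ} (hf : ∀ x, |f x| ≤ 1) (g : Pair n → ℝ) :
    |gav c f g| ≤ 1 := by
  refine (abs_sum_le_sum_abs _ _).trans ?_
  refine (sum_le_sum fun x _ => ?_).trans_eq (soft_sum (hv n c) g)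
  rw [abs_mul, abs_of_nonneg (soft_nonneg _ _ _)]
  exact mul_le_of_le_one_right (soft_nonneg _ _ _) (hf x)

theorem deriv_gav (c : ℝ) (f : Conf n → ℝ) (v : Tup n m) (l : Fin (m + 3)) (g : Pair n → ℝ) :
    HasDerivAt (fun t => gav c f (update g (ed v l) t))
      (c * (gav c (fun x => sgn v.1 l x * f x) g - gav c f g * gav c (sgn v.1 l) g))
      (g (ed v l)) := by
  refine (HasDerivAt.fun_sum fun x _ =>
    (hasDeriv_soft_update (hv n c) g (ed v l) x).mul_const (f x)).congr_deriv ?_
  simp only [hv_ed]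
  have e : ∑ s, soft (hv n c) g s * (c * sgn v.1 l s) = c * gav c (sgn v.1 l) g := by
    rw [gav, mul_sum]; exact sum_congr rfl fun s _ => by ring
  simp only [e]
  simp only [gav, mul_sub, sub_mul, sum_sub_distrib, mul_sum, sum_mul]
  congr 1
  · exact sum_congr rfl fun x _ => by ring
  · rw [sum_comm]
    exact sum_congr rfl fun x _ => sum_congr rfl fun y _ => by ring

/-- The spins of the processed edges with label `i`. -/
def blk (v : Fin (m + 3) → Fin n) (s : Finset (Fin (m + 3))) (L : Fin (m + 3) → Fin b) (i : Fin b)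
    (x : Conf n) : ℝ :=
  ∏ l ∈ sᶜ.filter (fun l => L l = i), sgn v l x

theorem abs_blk (v : Fin (m + 3) → Fin n) (s : Finset (Fin (m + 3))) (L : Fin (m + 3) → Fin b)
    (i : Fin b) (x : Conf n) : |blk v s L i x| ≤ 1 := by
  rw [blk, abs_prod]
  exact (prod_eq_one fun l _ => abs_sgn v l x).le

/-- Product over the labels of the replica averages; `s` holds the edges still to be processed. -/
noncomputable def val (c : ℝ) (v : Fin (m + 3) → Fin n) (s : Finset (Fin (m + 3)))
    (L : Fin (m + 3) → Fin b) (g : Pair n → ℝ) : ℝ :=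
  ∏ i, gav c (blk v s L i) g

theorem abs_val_le (c : ℝ) (v : Fin (m + 3) → Fin n) (s : Finset (Fin (m + 3)))
    (L : Fin (m + 3) → Fin b) (g : Pair n → ℝ) : |val c v s L g| ≤ 1 := by
  rw [val, abs_prod]
  exact Finset.prod_le_one (fun i _ => abs_nonneg _) fun i _ => abs_gav_le c (abs_blk v s L i) g

theorem continuous_gav (c : ℝ) (f : Conf n → ℝ) : Continuous (gav c f) := by
  unfold gav; fun_prop

theorem growth_val (c : ℝ) (v : Fin (m + 3) → Fin n) (s : Finset (Fin (m + 3)))
    (L : Fin (m + 3) → Fin b) : Growth (val c v s L) :=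
  ⟨continuous_finsetProd _ fun i _ => continuous_gav c _, 1, 0, zero_le_one, le_rfl,
    fun g => by simpa using abs_val_le c v s L g⟩

theorem growth_prod {ι σ : Type} [Fintype ι] (s : Finset σ) {F : σ → (ι → ℝ) → ℝ}
    (h : ∀ i ∈ s, Growth (F i)) : Growth fun g => ∏ i ∈ s, F i g := by
  classical
  induction s using Finset.induction_on with
  | empty => simpa using growth_const (ι := ι) 1
  | insert a t ha ih =>
    simp only [prod_insert ha]
    exact (h a (mem_insert_self a t)).mul (ih fun i hi => h i (mem_insert_of_mem hi))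

theorem blk_erase_same (v : Fin (m + 3) → Fin n) {s : Finset (Fin (m + 3))} {l : Fin (m + 3)}
    (hl : l ∈ s) (L : Fin (m + 3) → Fin b) (i : Fin b) (x : Conf n) :
    blk v (s.erase l) (update L l i) i x = sgn v l x * blk v s L i x := by
  rw [blk, blk, compl_erase, filter_insert, if_pos (update_self l i L),
    prod_insert fun h => (mem_compl.1 (mem_filter.1 h).1) hl]
  congr 1
  refine prod_congr (filter_congr fun j hj => ?_) fun _ _ => rfl
  rw [update_of_ne fun h : j = l => mem_compl.1 hj (h ▸ hl)]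

theorem blk_erase_other (v : Fin (m + 3) → Fin n) {s : Finset (Fin (m + 3))} {l : Fin (m + 3)}
    (hl : l ∈ s) (L : Fin (m + 3) → Fin b) {i j : Fin b} (hij : j ≠ i) :
    blk v (s.erase l) (update L l i) j = blk v s L j := by
  funext x
  rw [blk, blk, compl_erase, filter_insert, if_neg (by rw [update_self]; exact hij.symm)]
  refine prod_congr (filter_congr fun a ha => ?_) fun _ _ => rfl
  rw [update_of_ne fun h : a = l => mem_compl.1 ha (h ▸ hl)]

theorem val_old (c : ℝ) (v : Fin (m + 3) → Fin n) {s : Finset (Fin (m + 3))} {l : Fin (m + 3)}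
    (hl : l ∈ s) (L : Fin (m + 3) → Fin b) (i : Fin b) (g : Pair n → ℝ) :
    val c v (s.erase l) (update L l i) g
      = gav c (fun x => sgn v l x * blk v s L i x) g
        * ∏ j ∈ univ.erase i, gav c (blk v s L j) g := by
  rw [val, ← mul_prod_erase univ _ (mem_univ i)]
  congr 1
  · exact congrArg (fun f => gav c f g) (funext fun x => blk_erase_same v hl L i x)
  · exact prod_congr rfl fun j hj => by rw [blk_erase_other v hl L (ne_of_mem_erase hj)]

theorem val_new (c : ℝ) (v : Fin (m + 3) → Fin n) {s : Finset (Fin (m + 3))} {l : Fin (m + 3)}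
    (hl : l ∈ s) (L : Fin (m + 3) → Fin b) (g : Pair n → ℝ) :
    val c v (s.erase l) (update (fun a => (L a).castSucc) l (Fin.last b)) g
      = val c v s L g * gav c (sgn v l) g := by
  rw [val, val, Fin.prod_univ_castSucc]
  congr 1
  · refine prod_congr rfl fun i _ => ?_
    rw [blk_erase_other v hl _ (Fin.castSucc_ne_last i)]
    congr 1
    funext x
    simp only [blk, Fin.castSucc_inj]
  · congr 1
    funext x
    rw [blk_erase_same v hl, blk, filter_false_of_mem, prod_empty, mul_one]
    exact fun a _ => Fin.castSucc_ne_last _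

theorem deriv_val (c : ℝ) (v : Tup n m) {s : Finset (Fin (m + 3))} {l : Fin (m + 3)} (hl : l ∈ s)
    (L : Fin (m + 3) → Fin b) (g : Pair n → ℝ) :
    HasDerivAt (fun t => val c v.1 s L (update g (ed v l) t))
      (c * ((∑ i, val c v.1 (s.erase l) (update L l i) g)
        - b * val c v.1 (s.erase l) (update (fun a => (L a).castSucc) l (Fin.last b)) g))
      (g (ed v l)) := by
  refine (HasDerivAt.fun_finsetProd (u := univ) fun i _ =>
    deriv_gav c (blk v.1 s L i) v l g).congr_deriv ?_
  simp only [update_eq_self, smul_eq_mul, val_old c v.1 hl L _ g, val_new c v.1 hl L g]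
  have e : ∀ i : Fin b, val c v.1 s L g
      = gav c (blk v.1 s L i) g * ∏ j ∈ univ.erase i, gav c (blk v.1 s L j) g := fun i =>
    (mul_prod_erase univ (fun j => gav c (blk v.1 s L j) g) (mem_univ i)).symm
  have e2 : (b : ℝ) * (val c v.1 s L g * gav c (sgn v.1 l) g)
      = ∑ i : Fin b, gav c (blk v.1 s L i) g * (∏ j ∈ univ.erase i, gav c (blk v.1 s L j) g)
        * gav c (sgn v.1 l) g := by
    simp only [← e, sum_const, card_univ, Fintype.card_fin, nsmul_eq_mul]
  rw [e2, ← sum_sub_distrib, mul_sum]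
  exact sum_congr rfl fun i _ => by ring

/-- The remaining monomial against the replica product, summed over cycles. -/
noncomputable def T (n : ℕ) (c : ℝ) (s : Finset (Fin (m + 3))) (L : Fin (m + 3) → Fin b) : ℝ :=
  ∑ v : Tup n m, ∫ g, (∏ l ∈ s, g (ed v l)) * val c v.1 s L g ∂gp (Pair n)

theorem T_step (c : ℝ) {s : Finset (Fin (m + 3))} {l : Fin (m + 3)} (hl : l ∈ s)
    (L : Fin (m + 3) → Fin b) :
    T n c s L = c * ((∑ i, T n c (s.erase l) (update L l i))
      - b * T n c (s.erase l) (update (fun a => (L a).castSucc) l (Fin.last b))) := by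
  simp only [T]
  rw [sum_comm, mul_sum univ, ← sum_sub_distrib, mul_sum]
  refine sum_congr rfl fun v _ => ?_
  have gR : Growth fun g : Pair n → ℝ => ∏ a ∈ s.erase l, g (ed v a) :=
    growth_prod _ fun a _ => growth_coord _
  have gV := fun (b' : ℕ) (L' : Fin (m + 3) → Fin b') =>
    gR.mul (growth_val c v.1 (s.erase l) L')
  have e1 : ∀ g : Pair n → ℝ, (∏ a ∈ s, g (ed v a)) * val c v.1 s L g
      = g (ed v l) * ((∏ a ∈ s.erase l, g (ed v a)) * val c v.1 s L g) := fun g => by
    rw [← mul_prod_erase s _ hl]; ring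
  simp only [e1]
  set X := fun g : Pair n → ℝ => c * ((∑ i, (∏ a ∈ s.erase l, g (ed v a))
      * val c v.1 (s.erase l) (update L l i) g) - b * ((∏ a ∈ s.erase l, g (ed v a))
      * val c v.1 (s.erase l) (update (fun a => (L a).castSucc) l (Fin.last b)) g)) with hX
  have hXg : Growth X := by
    have h := (growth_const c).mul ((growth_sum univ fun i _ => gV b (update L l i)).add
      ((growth_const (b : ℝ)).mul (gV _ (update (fun a => (L a).castSucc) l (Fin.last b)))).neg)
    simpa only [hX, sub_eq_add_neg] using h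
  have hF := gR.mul (growth_val c v.1 s L)
  have hd : ∀ g : Pair n → ℝ, HasDerivAt (fun t => (∏ a ∈ s.erase l, update g (ed v l) t (ed v a))
      * val c v.1 s L (update g (ed v l) t)) (X g) (g (ed v l)) := fun g => by
    have e : ∀ t, (∏ a ∈ s.erase l, update g (ed v l) t (ed v a))
        = ∏ a ∈ s.erase l, g (ed v a) := fun t => prod_congr rfl fun a ha => by
      rw [update_of_ne ((ed_inj v).ne (ne_of_mem_erase ha))]
    simp only [e]
    refine ((deriv_val c v hl L g).const_mul _).congr_deriv ?_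
    simp only [hX, ← mul_sum]
    ring
  rw [ibp_gen (ed v l) hF.integrable hXg.integrable ((growth_coord _).mul hF).integrable hd, hX,
    integral_const_mul, integral_sub (integrable_finsetSum _ fun i _ => (gV b _).integrable)
      ((gV _ _).integrable.const_mul _), integral_const_mul,
    integral_finsetSum _ fun i _ => (gV b _).integrable]

/-- A bound at the leaves bounds every split chain. -/
theorem T_split {c : ℝ} (hc : 0 ≤ c) {B : ℝ}
    (hB : ∀ (b : ℕ) (L : Fin (m + 3) → Fin b) (l l' : Fin (m + 3)), L l ≠ L l' → |T n c ∅ L| ≤ B) :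
    ∀ (j b : ℕ) (s : Finset (Fin (m + 3))) (L : Fin (m + 3) → Fin b) (l l' : Fin (m + 3)),
      s.card = j → l ∉ s → l' ∉ s → L l ≠ L l' →
      |T n c s L| ≤ c ^ j * (2 * (b + j : ℝ)) ^ j * B := by
  intro j
  induction j with
  | zero =>
    intro b s L l l' hs _ _ hne
    rw [card_eq_zero.1 hs]
    simpa using hB b L l l' hne
  | succ j ih =>
    intro b s L l l' hs hl hl' hne
    obtain ⟨a, ha⟩ : s.Nonempty := card_pos.1 (by omega)
    have hB0 : 0 ≤ B := (abs_nonneg _).trans (hB b L l l' hne)
    have hcard : (s.erase a).card = j := by rw [card_erase_of_mem ha]; omega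
    have h1 : l ≠ a := fun h => hl (h ▸ ha)
    have h2 : l' ≠ a := fun h => hl' (h ▸ ha)
    have hm : ∀ {x : Fin (m + 3)}, x ∉ s → x ∉ s.erase a := fun hx h => hx (mem_of_mem_erase h)
    have old : ∀ i : Fin b, |T n c (s.erase a) (update L a i)|
        ≤ c ^ j * (2 * (b + j : ℝ)) ^ j * B := fun i =>
      ih b _ _ l l' hcard (hm hl) (hm hl') (by rw [update_of_ne h1, update_of_ne h2]; exact hne)
    have new := ih (b + 1) _ (update (fun x => (L x).castSucc) a (Fin.last b)) l l' hcard (hm hl)
      (hm hl') (by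
        rw [update_of_ne h1, update_of_ne h2]
        exact fun h => hne (Fin.castSucc_injective _ h))
    rw [T_step c ha, abs_mul, abs_of_nonneg hc]
    push_cast at new ⊢
    have hb : (1 : ℝ) ≤ b := by exact_mod_cast Fin.pos (L l)
    set P := (2 * ((b : ℝ) + (j + 1))) ^ j
    have hp1 : (2 * ((b : ℝ) + j)) ^ j ≤ P := pow_le_pow_left₀ (by positivity) (by linarith) j
    have hp2 : (2 * ((b : ℝ) + 1 + j)) ^ j = P := by simp only [P]; ring_nf
    rw [hp2] at new
    have hsum : |∑ i, T n c (s.erase a) (update L a i)| ≤ b * (c ^ j * P * B) := by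
      refine (abs_sum_le_sum_abs _ _).trans ((sum_le_sum fun i _ => (old i).trans
        (mul_le_mul_of_nonneg_right (mul_le_mul_of_nonneg_left hp1 (pow_nonneg hc j)) hB0)).trans_eq ?_)
      simp
    calc c * |(∑ i, T n c (s.erase a) (update L a i))
          - b * T n c (s.erase a) (update (fun x => (L x).castSucc) a (Fin.last b))|
        ≤ c * (2 * b * (c ^ j * P * B)) := by
          refine mul_le_mul_of_nonneg_left ((abs_sub _ _).trans ?_) hc
          rw [abs_mul, Nat.abs_cast]
          linarith [mul_le_mul_of_nonneg_left new (show (0 : ℝ) ≤ b by linarith)]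
      _ ≤ c * (2 * (b + (j + 1)) * (c ^ j * P * B)) := by gcongr; linarith
      _ = c ^ (j + 1) * (2 * ((b : ℝ) + (j + 1))) ^ (j + 1) * B := by
          simp only [P, pow_succ]; ring

/-- The chain with a single replica. -/
theorem T_main {c : ℝ} (hc : 0 ≤ c) {B : ℝ} (hB0 : 0 ≤ B)
    (hB : ∀ (b : ℕ) (L : Fin (m + 3) → Fin b) (l l' : Fin (m + 3)), L l ≠ L l' → |T n c ∅ L| ≤ B) :
    ∀ (j : ℕ) (s : Finset (Fin (m + 3))) (L : Fin (m + 3) → Fin 1), s.card = j → sᶜ.Nonempty →
      c ^ j * (Fintype.card (Tup n m) - j * (2 * (1 + j : ℝ)) ^ j * B) ≤ T n c s L := by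
  intro j
  induction j with
  | zero =>
    intro s L hs _
    rw [card_eq_zero.1 hs]
    simp only [T, prod_empty, one_mul, CharP.cast_eq_zero, zero_mul, sub_zero, pow_zero]
    refine le_of_eq ?_
    rw [← card_univ, cast_card]
    refine sum_congr rfl fun v _ => ?_
    have h : ∀ g, val c v.1 ∅ L g = 1 := fun g => by
      have h0 : ∀ i : Fin 1, ∀ x, blk v.1 ∅ L i x = 1 := fun i x => by
        have e : (∅ : Finset (Fin (m + 3)))ᶜ.filter (fun l => L l = i) = univ := by
          simp [Subsingleton.elim (L _) i]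
        rw [blk, e]
        simp only [sgn, prod_mul_distrib]
        rw [Fintype.prod_equiv (Equiv.addRight 1) (fun l => spin (x (v.1 (l + 1))))
          (fun l => spin (x (v.1 l))) fun l => rfl, ← prod_mul_distrib]
        simp [spin_sq]
      simp [val, gav, h0, soft_sum]
    simp [h]
  | succ j ih =>
    intro s L hs hne
    obtain ⟨a, ha⟩ : s.Nonempty := card_pos.1 (by omega)
    obtain ⟨l, hl⟩ := hne
    rw [mem_compl] at hl
    have hla : l ≠ a := fun h => hl (h ▸ ha)
    have hcard : (s.erase a).card = j := by rw [card_erase_of_mem ha]; omega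
    have new := T_split hc hB j 2 (s.erase a) (update (fun x => (L x).castSucc) a (Fin.last 1)) l a
      hcard (fun h => hl (mem_of_mem_erase h)) (notMem_erase a s) (by
        rw [update_of_ne hla, update_self]
        exact Fin.castSucc_ne_last _)
    have old := ih (s.erase a) (update L a 0) hcard ⟨a, by simp⟩
    rw [T_step c ha, Fin.sum_univ_one, Nat.cast_one, one_mul, pow_succ']
    push_cast at new ⊢
    rw [mul_assoc]
    refine mul_le_mul_of_nonneg_left ?_ hc
    have h1 : (2 * (1 + (j : ℝ))) ^ j ≤ (2 * (1 + (j + 1))) ^ j :=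
      pow_le_pow_left₀ (by positivity) (by linarith) j
    have h2 : (2 * (1 + ((j : ℝ) + 1))) ^ j ≤ (2 * (1 + (j + 1))) ^ (j + 1) :=
      pow_le_pow_right₀ (by linarith [Nat.cast_nonneg (α := ℝ) j]) (Nat.le_succ j)
    have h3 : (2 * ((2 : ℝ) + j)) ^ j = (2 * (1 + (j + 1))) ^ j := by ring_nf
    rw [h3] at new
    have h4 : j * (2 * (1 + (j : ℝ))) ^ j * B + (2 * (1 + ((j : ℝ) + 1))) ^ j * B
        ≤ (j + 1) * (2 * (1 + ((j : ℝ) + 1))) ^ (j + 1) * B := by
      rw [← add_mul]
      refine mul_le_mul_of_nonneg_right ?_ hB0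
      have := mul_le_mul_of_nonneg_left (h1.trans h2) (Nat.cast_nonneg (α := ℝ) j)
      linarith
    have h5 := mul_le_mul_of_nonneg_left h4 (pow_nonneg hc j)
    have h6 := (abs_le.1 new).2
    nlinarith [h5, h6, old]

end Vale.Agent.P146
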