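import Mathlib
import Vale.Agent.P150.Cavity
import Vale.Agent.P146.Ibp

/-!
P146: a cycle split between replicas is a product of overlaps, two of which are between distinct
replicas, so it is controlled by the mean squared overlap.
-/

open MeasureTheory ProbabilityTheory Finset Function
open Vale.Agent.P150 Vale.Agent.P150.Crit23

namespace Vale.Agent.P146

variable {n m b : ℕ} {β : ℝ}

theorem card_tup (n m : ℕ) : Fintype.card (Tup n m) = n.descFactorial (m + 3) := by
  rw [Fintype.card_congr (Equiv.subtypeInjectiveEquivEmbedding (Fin (m + 3)) (Fin n)),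
    Fintype.card_embedding_eq, Fintype.card_fin, Fintype.card_fin]

theorem card_tup_le (n m : ℕ) : (Fintype.card (Tup n m) : ℝ) ≤ (n : ℝ) ^ (m + 3) := by
  rw [card_tup]
  exact_mod_cast Nat.descFactorial_le_pow n (m + 3)

/-- A label change at one place of a cycle forces a second one. -/
theorem two_changes (L : Fin (m + 3) → Fin b) {l l' : Fin (m + 3)} (h : L l ≠ L l') :
    ∃ a a', a ≠ a' ∧ L a ≠ L (a - 1) ∧ L a' ≠ L (a' - 1) := by
  have h1 : ∃ a, L a ≠ L (a - 1) := by
    by_contra hc
    push Not at hc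
    have hall : ∀ a, L a = L 0 := fun a => by
      induction a using Fin.induction with
      | zero => rfl
      | succ i ih => rw [hc i.succ, ← Fin.coeSucc_eq_succ, add_sub_cancel_right, ih]
    exact h ((hall l).trans (hall l').symm)
  obtain ⟨a, ha⟩ := h1
  by_contra hc
  push Not at hc
  set f : Fin (m + 3) → ℝ := fun x => if L x = L a then 1 else 0 with hf
  have h0 : ∑ x, (f x - f (x - 1)) = 0 := by
    rw [sum_sub_distrib, Fintype.sum_equiv (Equiv.subRight 1) (fun x => f (x - 1)) f fun x => rfl,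
      sub_self]
  rw [Fintype.sum_eq_single a] at h0
  · simp [hf, ha.symm] at h0
  · intro x hx
    simp only [hf, hc a x (Ne.symm hx) ha, sub_self]

/-- Marginal of two replicas. -/
theorem marginal (w : Conf n → ℝ) (hw : ∑ z, w z = 1) {a a' : Fin b} (h : a ≠ a')
    (f : Conf n → Conf n → ℝ) :
    ∑ X : Fin b → Conf n, (∏ i, w (X i)) * f (X a) (X a') = ∑ x, ∑ y, w x * w y * f x y := by
  classical
  set H : Conf n → Conf n → Fin b → Conf n → ℝ := fun x y i z =>
    w z * (if i = a then (if z = x then 1 else 0) else 1)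
      * (if i = a' then (if z = y then 1 else 0) else 1) with hH
  have e : ∀ X : Fin b → Conf n, (∏ i, w (X i)) * f (X a) (X a')
      = ∑ x, ∑ y, (∏ i, H x y i (X i)) * f x y := fun X => by
    have e1 : ∀ x y, ∏ i, H x y i (X i)
        = (∏ i, w (X i)) * (if X a = x then 1 else 0) * (if X a' = y then 1 else 0) := fun x y => by
      simp only [hH, prod_mul_distrib, prod_ite_eq', mem_univ, if_true]
    simp only [e1, mul_ite, mul_one, mul_zero, ite_mul, zero_mul, sum_ite_eq, mem_univ, if_true]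
  simp only [e]
  rw [sum_comm]
  refine sum_congr rfl fun x _ => ?_
  rw [sum_comm]
  refine sum_congr rfl fun y _ => ?_
  rw [← sum_mul, ← Fintype.prod_sum]
  congr 1
  have e2 : ∀ i, ∑ z, H x y i z = (if i = a then w x else 1) * (if i = a' then w y else 1) :=
    fun i => by
    rcases eq_or_ne i a with rfl | h1
    · simp [hH, h]
    · rcases eq_or_ne i a' with rfl | h2
      · simp [hH, h1]
      · simp [hH, h1, h2, hw]
  simp only [e2, prod_mul_distrib, prod_ite_eq', mem_univ, if_true]

theorem leaf_all (c : ℝ) (L : Fin (m + 3) → Fin b) (g : Pair n → ℝ) :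
    ∑ v : Fin (m + 3) → Fin n, val c v ∅ L g
      = ∑ X : Fin b → Conf n, (∏ i, soft (hv n c) g (X i))
          * ∏ l, ov (X (L l)) (X (L (l - 1))) := by
  classical
  have e : ∀ v, val c v ∅ L g = ∑ X : Fin b → Conf n,
      (∏ i, soft (hv n c) g (X i)) * ∏ l, (spin (X (L l) (v l)) * spin (X (L (l - 1)) (v l))) :=
    fun v => by
    simp only [val, gav, blk, compl_empty, Fintype.prod_sum, prod_mul_distrib]
    refine sum_congr rfl fun X _ => ?_
    congr 1
    have e1 : ∀ i, ∏ l ∈ univ.filter (fun l => L l = i), sgn v l (X i)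
        = ∏ l ∈ univ.filter (fun l => L l = i), sgn v l (X (L l)) := fun i =>
      prod_congr rfl fun l hl => by rw [(mem_filter.1 hl).2]
    rw [prod_congr rfl fun i _ => e1 i, prod_fiberwise]
    simp only [sgn, prod_mul_distrib]
    congr 1
    exact (Fintype.prod_equiv (Equiv.subRight 1) (fun l => spin (X (L (l - 1)) (v l)))
      (fun l => spin (X (L l) (v (l + 1)))) fun l => by simp).symm
  simp only [e]
  rw [sum_comm]
  refine sum_congr rfl fun X _ => ?_
  rw [← mul_sum]
  congr 1
  exact (Fintype.prod_sum fun l j => spin (X (L l) j) * spin (X (L (l - 1)) j)).symm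

theorem leaf_bound (hn : 1 ≤ n) (L : Fin (m + 3) → Fin b) {l l' : Fin (m + 3)} (h : L l ≠ L l')
    (g : Pair n → ℝ) :
    |∑ v : Fin (m + 3) → Fin n, val (β / Real.sqrt n) v ∅ L g|
      ≤ (n : ℝ) ^ (m + 3) * Qsq n β g := by
  obtain ⟨a, a', hne, ha, ha'⟩ := two_changes L h
  have hn' : (0 : ℝ) < n := by exact_mod_cast hn
  rw [leaf_all]
  simp only [← mu_eq]
  refine (abs_sum_le_sum_abs _ _).trans ?_
  set r : (Fin b → Conf n) → Fin (m + 3) → ℝ := fun X x => ov (X (L x)) (X (L (x - 1))) / n with hr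
  have hr1 : ∀ X x, |r X x| ≤ 1 := fun X x => by
    rw [hr, abs_div, Nat.abs_cast]
    exact div_le_one_of_le₀ (abs_ov_le _ _) hn'.le
  have hw : ∀ X : Fin b → Conf n, 0 ≤ ∏ i, mu n β g (X i) := fun X =>
    prod_nonneg fun i _ => (mu_pos g _).le
  have hb : ∀ X : Fin b → Conf n, |(∏ i, mu n β g (X i)) * ∏ x, ov (X (L x)) (X (L (x - 1)))|
      ≤ (n : ℝ) ^ (m + 3) * ((∏ i, mu n β g (X i)) * r X a ^ 2 / 2
        + (∏ i, mu n β g (X i)) * r X a' ^ 2 / 2) := fun X => by
    have e : ∏ x, ov (X (L x)) (X (L (x - 1))) = (n : ℝ) ^ (m + 3) * ∏ x, r X x := by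
      rw [show ((n : ℝ) ^ (m + 3)) = ∏ _x : Fin (m + 3), (n : ℝ) by simp, ← prod_mul_distrib]
      exact prod_congr rfl fun x _ => by simp only [hr]; field_simp
    have hp : |∏ x, r X x| ≤ |r X a| * |r X a'| := by
      rw [abs_prod, ← mul_prod_erase univ _ (mem_univ a),
        ← mul_prod_erase (univ.erase a) _ (mem_erase.2 ⟨hne.symm, mem_univ _⟩), ← mul_assoc]
      exact mul_le_of_le_one_right (by positivity)
        (Finset.prod_le_one (fun x _ => abs_nonneg _) fun x _ => hr1 X x)
    rw [e, abs_mul, abs_mul, abs_of_nonneg (hw X),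
      abs_of_nonneg (show (0 : ℝ) ≤ (n : ℝ) ^ (m + 3) by positivity)]
    have : |r X a| * |r X a'| ≤ r X a ^ 2 / 2 + r X a' ^ 2 / 2 := by
      rw [← sq_abs (r X a), ← sq_abs (r X a')]
      nlinarith [sq_nonneg (|r X a| - |r X a'|)]
    calc (∏ i, mu n β g (X i)) * ((n : ℝ) ^ (m + 3) * |∏ x, r X x|)
        ≤ (∏ i, mu n β g (X i)) * ((n : ℝ) ^ (m + 3) * (r X a ^ 2 / 2 + r X a' ^ 2 / 2)) := by
          gcongr
          · exact hw X
          · exact hp.trans this
      _ = _ := by ring
  refine (sum_le_sum fun X _ => hb X).trans_eq ?_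
  rw [← mul_sum, sum_add_distrib, ← sum_div, ← sum_div]
  simp only [hr]
  rw [marginal (fun z => mu n β g z) (mu_sum g) ha fun x y => (ov x y / n) ^ 2,
    marginal (fun z => mu n β g z) (mu_sum g) ha' fun x y => (ov x y / n) ^ 2]
  rw [Qsq]
  ring

/-- The leaves. -/
theorem T_leaf (hn : 1 ≤ n) (L : Fin (m + 3) → Fin b) {l l' : Fin (m + 3)} (h : L l ≠ L l') :
    |T n (β / Real.sqrt n) ∅ L|
      ≤ (n : ℝ) ^ (m + 3) * Qmean n β + ((n : ℝ) ^ (m + 3) - Fintype.card (Tup n m)) := by
  classical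
  set c := β / Real.sqrt n
  simp only [T, prod_empty, one_mul]
  rw [← integral_finsetSum _ fun v _ => (growth_val c _ ∅ L).integrable, Qmean,
    ← integral_const_mul]
  have hd : (n : ℝ) ^ (m + 3) - Fintype.card (Tup n m)
      = ∫ _g : Pair n → ℝ, ((n : ℝ) ^ (m + 3) - Fintype.card (Tup n m)) ∂gp (Pair n) := by simp
  rw [hd, ← integral_add (integrable_Qsq.const_mul _) (integrable_const _)]
  refine abs_integral_le_integral_abs.trans (integral_mono
    (integrable_finsetSum _ fun v _ => (growth_val c _ ∅ L).integrable).abs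
    ((integrable_Qsq.const_mul _).add (integrable_const _)) fun g => ?_)
  have e := Fintype.sum_subtype_add_sum_subtype (fun v : Fin (m + 3) → Fin n => Injective v)
    fun v => val c v ∅ L g
  have hc : (Fintype.card {v : Fin (m + 3) → Fin n // ¬Injective v} : ℝ)
      = (n : ℝ) ^ (m + 3) - Fintype.card (Tup n m) := by
    rw [Fintype.card_subtype_compl, Nat.cast_sub (Fintype.card_subtype_le _)]
    simp
  have h2 : |∑ v : {v : Fin (m + 3) → Fin n // ¬Injective v}, val c v.1 ∅ L g|
      ≤ (n : ℝ) ^ (m + 3) - Fintype.card (Tup n m) := by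
    rw [← hc]
    refine (abs_sum_le_sum_abs _ _).trans ((sum_le_sum fun v _ => abs_val_le c v.1 ∅ L g).trans_eq ?_)
    simp
  rw [eq_sub_of_add_eq e]
  exact (abs_sub _ _).trans (add_le_add (leaf_bound hn L h g) h2)

end Vale.Agent.P146
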