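import Mathlib
import Vale.Agent.P146.Leaf

/-!
P146: Bessel lower bound on the variance of the free energy through cycle monomials.
-/

open MeasureTheory ProbabilityTheory Finset Function
open Vale.Agent.P150 Vale.Agent.P150.Crit23

namespace Vale.Agent.P146

variable {n m : ℕ}

/-- A monomial of pairs. -/
def mono (A : Finset (Pair n)) (g : Pair n → ℝ) : ℝ := ∏ p ∈ A, g p

theorem growth_mono (A : Finset (Pair n)) : Growth (mono A) :=
  growth_prod A fun p _ => growth_coord p

theorem mono_update {A : Finset (Pair n)} {p : Pair n} (hp : p ∉ A) (g : Pair n → ℝ) (t : ℝ) :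
    mono A (update g p t) = mono A g :=
  prod_congr rfl fun q hq => update_of_ne (fun h : q = p => hp (h ▸ hq)) _ _

theorem mono_ne {A B : Finset (Pair n)} {p : Pair n} (hA : p ∈ A) (hB : p ∉ B) :
    ∫ g, mono A g * mono B g ∂gp (Pair n) = 0 := by
  have gF := (growth_mono (A.erase p)).mul (growth_mono B)
  have e : ∀ g : Pair n → ℝ, mono A g * mono B g = g p * (mono (A.erase p) g * mono B g) :=
    fun g => by rw [mono, ← mul_prod_erase A _ hA]; simp only [mono]; ring
  simp only [e]
  rw [ibp_gen (F' := fun _ => (0 : ℝ)) p gF.integrable (integrable_const 0)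
    ((growth_coord p).mul gF).integrable fun g => ?_, integral_zero]
  simp only [mono_update (notMem_erase p A), mono_update hB]
  exact hasDerivAt_const _ _

theorem mono_self (A : Finset (Pair n)) : ∫ g, mono A g * mono A g ∂gp (Pair n) = 1 := by
  induction A using Finset.induction_on with
  | empty => simp [mono]
  | insert p A hp ih =>
    have gR := (growth_mono A).mul (growth_mono A)
    have gF := (growth_coord p).mul gR
    have e : ∀ g : Pair n → ℝ, mono (insert p A) g * mono (insert p A) g
        = g p * (g p * (mono A g * mono A g)) := fun g => by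
      simp only [mono, prod_insert hp]; ring
    simp only [e]
    rw [ibp_gen (F' := fun g => mono A g * mono A g) p gF.integrable gR.integrable
      ((growth_coord p).mul gF).integrable fun g => ?_, ih]
    simp only [mono_update hp, update_self]
    simpa using (hasDerivAt_id (g p)).mul_const (mono A g * mono A g)

theorem mono_orth (A B : Finset (Pair n)) :
    ∫ g, mono A g * mono B g ∂gp (Pair n) = if A = B then 1 else 0 := by
  split_ifs with h
  · subst h; exact mono_self A
  · by_cases hs : A ⊆ B
    · obtain ⟨p, hp, hp'⟩ := not_subset.1 fun hs' => h (hs.antisymm hs')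
      rw [integral_congr_ae (ae_of_all _ fun g => mul_comm (mono A g) (mono B g))]
      exact mono_ne hp hp'
    · obtain ⟨p, hp, hp'⟩ := not_subset.1 hs
      exact mono_ne hp hp'

/-- The edges of a cycle. -/
def edges (v : Tup n m) : Finset (Pair n) := univ.image (ed v)

theorem card_edges (v : Tup n m) : (edges v).card = m + 3 := by
  rw [edges, card_image_of_injective _ (ed_inj v), card_univ, Fintype.card_fin]

/-- The sum of the cycle monomials of length `m + 3`. -/
noncomputable def cyc (n m : ℕ) (g : Pair n → ℝ) : ℝ := ∑ v : Tup n m, mono (edges v) g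

theorem growth_cyc (n m : ℕ) : Growth (cyc n m) := growth_sum univ fun v _ => growth_mono _

theorem nbr {v : Tup n m} {a b : Fin n} {h : a ≠ b} (he : edge a b h ∈ edges v)
    {l : Fin (m + 3)} (hl : a = v.1 l) : b = v.1 (l + 1) ∨ b = v.1 (l - 1) := by
  obtain ⟨x, -, hx⟩ := mem_image.1 he
  rcases edge_inj hx with ⟨h1, h2⟩ | ⟨h1, h2⟩
  · exact Or.inl (by rw [← h2, v.2 (h1.trans hl)])
  · refine Or.inr ?_
    rw [← h1, show l = x + 1 from (v.2 (h2.trans hl)).symm, add_sub_cancel_right]

theorem edge_comm' {a b : Fin n} (h : a ≠ b) : edge b a h.symm = edge a b h := by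
  rcases lt_or_gt_of_ne h with h1 | h1
  · simp [edge, h1, h1.not_gt]
  · simp [edge, h1, h1.not_gt]

theorem count_same (v : Tup n m) :
    (univ.filter fun w : Tup n m => edges w = edges v).card ≤ 2 * (m + 3) := by
  classical
  set S := (univ.image fun l => (v.1 l, v.1 (l + 1))) ∪ (univ.image fun l => (v.1 (l + 1), v.1 l))
  have hS : S.card ≤ 2 * (m + 3) := by
    refine (card_union_le _ _).trans ?_
    refine (add_le_add card_image_le card_image_le).trans ?_
    rw [card_univ, Fintype.card_fin]; omega
  refine le_trans (card_le_card_of_injOn (fun w => (w.1 0, w.1 1)) ?_ ?_) hS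
  · intro w hw
    have hw' : edges w = edges v := (mem_filter.1 (mem_coe.1 hw)).2
    have h0 : ed w 0 ∈ edges v := hw' ▸ mem_image_of_mem _ (mem_univ 0)
    obtain ⟨l, -, hl⟩ := mem_image.1 h0
    rcases edge_inj hl with ⟨h1, h2⟩ | ⟨h1, h2⟩
    · refine mem_coe.2 (mem_union_left _ (mem_image.2 ⟨l, mem_univ _, ?_⟩))
      simp [h1, h2]
    · refine mem_coe.2 (mem_union_right _ (mem_image.2 ⟨l, mem_univ _, ?_⟩))
      simp [h1, h2]
  · intro w hw w' hw' heq
    have e : edges w = edges v := (mem_filter.1 (mem_coe.1 hw)).2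
    have e' : edges w' = edges v := (mem_filter.1 (mem_coe.1 hw')).2
    simp only [Prod.mk.injEq] at heq
    have hP : ∀ x, w.1 x = w'.1 x ∧ w.1 (x + 1) = w'.1 (x + 1) := fun x => by
      induction x using Fin.induction with
      | zero => simpa using heq
      | succ i ih =>
        rw [← Fin.coeSucc_eq_succ]
        set x := i.castSucc
        refine ⟨ih.2, ?_⟩
        have m1 : ed w (x + 1) ∈ edges v := e ▸ mem_image_of_mem _ (mem_univ _)
        have m1' : ed w' (x + 1) ∈ edges v := e' ▸ mem_image_of_mem _ (mem_univ _)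
        have m0 : ed w x ∈ edges v := e ▸ mem_image_of_mem _ (mem_univ _)
        obtain ⟨l, hl⟩ : ∃ l, w.1 (x + 1) = v.1 l := by
          obtain ⟨l, -, hl⟩ := mem_image.1 m0
          rcases edge_inj hl with ⟨-, h2⟩ | ⟨h1, -⟩
          · exact ⟨_, h2.symm⟩
          · exact ⟨_, h1.symm⟩
        have hx : w.1 x ≠ w.1 (x + 1) := fun h => succ_ne x (w.2 h).symm
        have r0 : w.1 x = v.1 (l + 1) ∨ w.1 x = v.1 (l - 1) :=
          nbr (h := hx.symm) (by rw [edge_comm' hx]; exact m0) hl
        have r1 : w.1 (x + 1 + 1) = v.1 (l + 1) ∨ w.1 (x + 1 + 1) = v.1 (l - 1) := nbr m1 hl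
        have r1' : w'.1 (x + 1 + 1) = v.1 (l + 1) ∨ w'.1 (x + 1 + 1) = v.1 (l - 1) :=
          nbr m1' (ih.2 ▸ hl)
        have d : w.1 (x + 1 + 1) ≠ w.1 x := w.2.ne (succ_succ_ne x)
        have d' : w'.1 (x + 1 + 1) ≠ w.1 x := by rw [ih.1]; exact w'.2.ne (succ_succ_ne x)
        rcases r0 with r0 | r0 <;> rcases r1 with r1 | r1 <;> rcases r1' with r1' | r1' <;>
          first
            | exact r1.trans r1'.symm
            | exact absurd (r1.trans r0.symm) d
            | exact absurd (r1'.trans r0.symm) d'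
    exact Subtype.ext (funext fun x => (hP x).1)

theorem cyc_orth (n : ℕ) {i j : ℕ} (h : i ≠ j) :
    ∫ g, cyc n i g * cyc n j g ∂gp (Pair n) = 0 := by
  simp only [cyc, sum_mul_sum]
  rw [integral_finsetSum _ fun v _ => integrable_finsetSum _ fun w _ =>
    ((growth_mono _).mul (growth_mono _)).integrable]
  refine sum_eq_zero fun v _ => ?_
  rw [integral_finsetSum _ fun w _ => ((growth_mono _).mul (growth_mono _)).integrable]
  refine sum_eq_zero fun w _ => ?_
  rw [mono_orth, if_neg]
  intro e
  have := congrArg Finset.card e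
  rw [card_edges, card_edges] at this
  omega

theorem cyc_sq (n m : ℕ) :
    ∫ g, cyc n m g * cyc n m g ∂gp (Pair n) ≤ 2 * (m + 3 : ℝ) * (n : ℝ) ^ (m + 3) := by
  simp only [cyc, sum_mul_sum]
  rw [integral_finsetSum _ fun v _ => integrable_finsetSum _ fun w _ =>
    ((growth_mono _).mul (growth_mono _)).integrable]
  have hv : ∀ v : Tup n m, ∫ g, ∑ w : Tup n m, mono (edges v) g * mono (edges w) g ∂gp (Pair n)
      ≤ 2 * (m + 3 : ℝ) := fun v => by
    rw [integral_finsetSum _ fun w _ => ((growth_mono _).mul (growth_mono _)).integrable]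
    simp only [mono_orth, sum_boole]
    have h := count_same v
    have e : (univ.filter fun w : Tup n m => edges v = edges w)
        = univ.filter fun w : Tup n m => edges w = edges v := filter_congr fun w _ => eq_comm
    rw [e]
    exact_mod_cast h
  refine (sum_le_sum fun v _ => hv v).trans ?_
  rw [sum_const, card_univ, nsmul_eq_mul, mul_comm]
  exact mul_le_mul_of_nonneg_left (card_tup_le n m) (by positivity)

theorem cyc_mean (n m : ℕ) : ∫ g, cyc n m g ∂gp (Pair n) = 0 := by
  simp only [cyc]
  rw [integral_finsetSum _ fun v _ => (growth_mono _).integrable]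
  refine sum_eq_zero fun v _ => ?_
  have h := mono_orth (edges v) (∅ : Finset (Pair n))
  have hne : edges v ≠ ∅ := fun he => by
    have := card_edges v; rw [he, card_empty] at this; omega
  rw [if_neg hne] at h
  simpa [mono] using h

/-- The combined statistic. -/
noncomputable def stat (n J : ℕ) (a : ℕ → ℝ) (g : Pair n → ℝ) : ℝ := ∑ j ∈ range J, a j * cyc n j g

theorem growth_stat (n J : ℕ) (a : ℕ → ℝ) : Growth (stat n J a) :=
  growth_sum _ fun j _ => (growth_const (a j)).mul (growth_cyc n j)

theorem stat_mean (n J : ℕ) (a : ℕ → ℝ) : ∫ g, stat n J a g ∂gp (Pair n) = 0 := by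
  simp only [stat]
  rw [integral_finsetSum _ fun j _ => (growth_cyc n j).integrable.const_mul _]
  simp [integral_const_mul, cyc_mean]

theorem stat_sq (n J : ℕ) (a : ℕ → ℝ) : ∫ g, stat n J a g ^ 2 ∂gp (Pair n)
    ≤ ∑ j ∈ range J, a j ^ 2 * (2 * (j + 3 : ℝ) * (n : ℝ) ^ (j + 3)) := by
  simp only [stat, pow_two, sum_mul_sum]
  have hi : ∀ i j, Integrable (fun g => a i * cyc n i g * (a j * cyc n j g)) (gp (Pair n)) :=
    fun i j => (((growth_const (a i)).mul (growth_cyc n i)).mul
      ((growth_const (a j)).mul (growth_cyc n j))).integrable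
  rw [integral_finsetSum _ fun i _ => integrable_finsetSum _ fun j _ => hi i j]
  refine sum_le_sum fun i hi' => ?_
  rw [integral_finsetSum _ fun j _ => hi i j]
  have e : ∀ j, ∫ g, a i * cyc n i g * (a j * cyc n j g) ∂gp (Pair n)
      = a i * a j * ∫ g, cyc n i g * cyc n j g ∂gp (Pair n) := fun j => by
    rw [← integral_const_mul]; exact integral_congr_ae (ae_of_all _ fun g => by ring)
  simp only [e]
  rw [sum_eq_single i (fun j _ hj => by rw [cyc_orth n (Ne.symm hj), mul_zero])
    (fun h => absurd hi' h)]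
  exact mul_le_mul_of_nonneg_left (cyc_sq n i) (mul_self_nonneg _)

/-- Bessel's inequality for one mean-zero statistic. -/
theorem variance_ge {F X : (Pair n → ℝ) → ℝ} (gF : Growth F) (gX : Growth X)
    (hX : ∫ g, X g ∂gp (Pair n) = 0) :
    2 * ∫ g, F g * X g ∂gp (Pair n) - ∫ g, X g ^ 2 ∂gp (Pair n) ≤ variance F (gp (Pair n)) := by
  rw [variance_eq_integral gF.integrable.aemeasurable]
  set M := ∫ g, F g ∂gp (Pair n)
  have g0 : Growth fun g => F g + -M := gF.add (growth_const _)
  have i1 : Integrable (fun g => (F g - M) ^ 2) (gp (Pair n)) := by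
    simpa only [pow_two, sub_eq_add_neg] using (g0.mul g0).integrable
  have i2 : Integrable (fun g => X g ^ 2) (gp (Pair n)) := by
    simpa only [pow_two] using (gX.mul gX).integrable
  have i3 : Integrable (fun g => F g * X g) (gp (Pair n)) := (gF.mul gX).integrable
  have i4 : Integrable (fun g => 2 * (F g * X g) - 2 * M * X g) (gp (Pair n)) :=
    (i3.const_mul 2).sub (gX.integrable.const_mul _)
  have h := integral_mono (i4.sub i2) i1 fun g => by
    simp only [Pi.sub_apply]
    nlinarith [sq_nonneg (F g - M - X g)]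
  simp only [Pi.sub_apply] at h
  rw [integral_sub i4 i2, integral_sub (i3.const_mul 2) (gX.integrable.const_mul _),
    integral_const_mul, integral_const_mul, hX] at h
  simpa using h

theorem growth_lse (v : Conf n → Pair n → ℝ) : Growth (lse v) := by
  refine ⟨continuous_lse v, |Real.log (Fintype.card (Conf n))| + ∑ x, ∑ i, |v x i|, 1,
    by positivity, zero_le_one, fun g => ?_⟩
  have h0 : 0 ≤ l1 g := sum_nonneg fun i _ => abs_nonneg _
  have h1 := abs_lse_le v g
  have h2 : ∑ x, |lin (v x) g| ≤ (∑ x, ∑ i, |v x i|) * l1 g := by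
    rw [sum_mul]; exact sum_le_sum fun x _ => abs_lin_le _ _
  rw [one_mul, add_mul]
  refine h1.trans (add_le_add ?_ (h2.trans ?_))
  · exact (le_abs_self _).trans (le_mul_of_one_le_right (abs_nonneg _) (Real.one_le_exp h0))
  · exact mul_le_mul_of_nonneg_left (by linarith [Real.add_one_le_exp (l1 g)]) (by positivity)

theorem diff_lse (c : ℝ) (v : Tup n m) (l : Fin (m + 3)) (g : Pair n → ℝ) :
    HasDerivAt (fun t => lse (hv n c) (update g (ed v l) t)) (c * gav c (sgn v.1 l) g) (g (ed v l)) := by
  set p := ed v l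
  have hl : ∀ s, HasDerivAt (fun x => Real.exp (lin (hv n c s) (update g p x)))
      (Real.exp (lin (hv n c s) g) * hv n c s p) (g p) := fun s => by
    have h : HasDerivAt (fun x => lin (hv n c s) (update g p x)) (hv n c s p) (g p) := by
      simp only [lin_update]
      simpa using ((hasDerivAt_id (g p)).mul_const (hv n c s p)).add_const
        (∑ j ∈ univ.erase p, g j * hv n c s j)
    simpa [update_eq_self] using h.exp
  refine ((HasDerivAt.fun_sum (u := univ) fun s _ => hl s).log
    (by simpa using (lse_den_pos (hv n c) g).ne')).congr_deriv ?_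
  simp only [update_eq_self, gav, soft, sum_div, mul_sum, p, hv_ed]
  exact sum_congr rfl fun s _ => by ring

/-- The projection of the free energy on the cycles of one length. -/
theorem proj_ge (hn : 1 ≤ n) {β : ℝ} (hβ : 0 ≤ β) (m : ℕ) :
    (β / Real.sqrt n) ^ (m + 3) * ((Fintype.card (Tup n m) : ℝ)
      - (m + 2 : ℕ) * (2 * (1 + (m + 2 : ℕ) : ℝ)) ^ (m + 2)
        * ((n : ℝ) ^ (m + 3) * Qmean n β + ((n : ℝ) ^ (m + 3) - Fintype.card (Tup n m))))
      ≤ ∫ g, lse (hv n (β / Real.sqrt n)) g * cyc n m g ∂gp (Pair n) := by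
  set c := β / Real.sqrt n
  have hc : 0 ≤ c := div_nonneg hβ (Real.sqrt_nonneg _)
  have hB0 : 0 ≤ (n : ℝ) ^ (m + 3) * Qmean n β + ((n : ℝ) ^ (m + 3) - Fintype.card (Tup n m)) :=
    add_nonneg (mul_nonneg (by positivity) (integral_nonneg fun g => Qsq_nonneg g))
      (sub_nonneg.2 (card_tup_le n m))
  have gL := growth_lse (hv n c)
  set L : Fin (m + 3) → Fin 1 := fun _ => 0
  set s := (univ : Finset (Fin (m + 3))).erase 0
  have hval : ∀ (v : Tup n m) g, val c v.1 s L g = gav c (sgn v.1 0) g := fun v g => by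
    have h : ∀ x, blk v.1 s L 0 x = sgn v.1 0 x := fun x => by simp [blk, s, L]
    rw [val, Fin.prod_univ_one]
    exact congrArg (fun f => gav c f g) (funext h)
  have key : ∫ g, lse (hv n c) g * cyc n m g ∂gp (Pair n) = c * T n c s L := by
    simp only [cyc, mul_sum]
    rw [integral_finsetSum _ fun v _ => (gL.mul (growth_mono _)).integrable]
    simp only [T, mul_sum]
    refine sum_congr rfl fun v _ => ?_
    have gR : Growth fun g : Pair n → ℝ => ∏ a ∈ s, g (ed v a) :=
      growth_prod _ fun a _ => growth_coord _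
    have e : ∀ g : Pair n → ℝ, lse (hv n c) g * mono (edges v) g
        = g (ed v 0) * ((∏ a ∈ s, g (ed v a)) * lse (hv n c) g) := fun g => by
      rw [mono, edges, prod_image fun a _ b _ h => ed_inj v h,
        ← mul_prod_erase univ _ (mem_univ (0 : Fin (m + 3)))]
      simp only [s]; ring
    simp only [e]
    rw [← integral_const_mul]
    refine ibp_gen _ (gR.mul gL).integrable
      ((gR.mul (growth_val c v.1 s L)).integrable.const_mul c)
      ((growth_coord _).mul (gR.mul gL)).integrable fun g => ?_
    have e1 : ∀ t, (∏ a ∈ s, update g (ed v 0) t (ed v a)) = ∏ a ∈ s, g (ed v a) := fun t =>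
      prod_congr rfl fun a ha => by rw [update_of_ne ((ed_inj v).ne (ne_of_mem_erase ha))]
    simp only [e1]
    refine ((diff_lse c v 0 g).const_mul _).congr_deriv ?_
    rw [hval]; ring
  rw [key, pow_succ', mul_assoc]
  refine mul_le_mul_of_nonneg_left ?_ hc
  exact T_main hc hB0 (fun b L' l l' h => T_leaf hn L' h) (m + 2) s L
    (by simp [s]) ⟨0, by simp [s]⟩

end Vale.Agent.P146
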