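import Mathlib
import Vale.Agent.P150.Main
import Vale.Agent.P150.Crit23.Main
import Vale.Agent.P146.Chaos

/-!
P146: the mean squared overlap near the critical temperature and the resulting lower bound
on the variance of the free energy.
-/

open MeasureTheory ProbabilityTheory Finset Function Filter Topology
open Vale.Agent.P150 Vale.Agent.P150.Crit23

namespace Vale.Agent.P146

variable {n : ℕ}

/-- The overlap at `β ≥ 1` against the overlap at the critical temperature. -/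
theorem Qmean_le_crit (hn : 1 ≤ n) {β : ℝ} (hβ : 1 ≤ β) :
    Qmean n β ≤ 1 - 1 / β + Qmean n 1 := by
  have hn' : (0 : ℝ) < n := by exact_mod_cast hn
  have hQ := (Qmean_mem n 1).1
  rcases hβ.eq_or_lt with h | h
  · subst h; simp
  have hβ0 : 0 < β := by linarith
  obtain ⟨iE, eE⟩ := energyMean_eq n 1
  have h1 := integral_mono (iE.const_mul (β / 1 - 1))
    ((integrable_lse (hv n (β / Real.sqrt n))).sub (integrable_lse (hv n (1 / Real.sqrt n))))
    fun g => tangent n one_pos β g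
  simp only [Pi.sub_apply] at h1
  rw [integral_const_mul, integral_sub (integrable_lse _) (integrable_lse _), eE hn] at h1
  have h2 := incr_le hn one_pos hβ
  have e : meanLogZ n β = ∫ g, lse (hv n (β / Real.sqrt n)) g ∂gp (Pair n) := rfl
  have e' : meanLogZ n 1 = ∫ g, lse (hv n (1 / Real.sqrt n)) g ∂gp (Pair n) := rfl
  rw [e, e'] at h2
  have h3 : (n : ℝ) * (β - 1) / 2 * (1 - Qmean n 1)
      ≤ (n : ℝ) * (β - 1) / 2 * (β * (1 - Qmean n β)) := by
    refine le_trans (le_of_eq ?_) (h1.trans (h2.trans_eq ?_))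
    · ring
    · ring
  have h4 : 1 - Qmean n 1 ≤ β * (1 - Qmean n β) :=
    le_of_mul_le_mul_left h3 (by have := sub_pos.2 h; positivity)
  have h5 : (1 - Qmean n 1) / β ≤ 1 - Qmean n β := by rw [div_le_iff₀ hβ0]; linarith
  have h6 : Qmean n 1 / β ≤ Qmean n 1 := div_le_self hQ hβ
  rw [sub_div] at h5
  linarith

/-- The overlap vanishes at the critical temperature. -/
theorem Qmean_crit {η : ℝ} (hη : 0 < η) : ∀ᶠ n : ℕ in atTop, Qmean n 1 ≤ η := by
  set t := min η (1 / 2) with ht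
  have ht0 : 0 < t := lt_min hη (by norm_num)
  have ht1 : t ≤ 1 / 2 := min_le_right _ _
  have htη : t ≤ η := min_le_left _ _
  have hlim := (tendsto_deficit one_pos).eventually_le_const (show (0 : ℝ) < t ^ 2 / 4 by positivity)
  filter_upwards [hlim, eventually_ge_atTop 1] with n hd hn
  have hn' : (0 : ℝ) < n := by exact_mod_cast hn
  rw [Real.rpow_one, div_le_iff₀ hn'] at hd
  have hI := incr_le hn (show 0 < 1 - t by linarith) (show 1 - t ≤ (1 : ℝ) by linarith)
  have hU := meanLogZ_le (β := 1 - t) hn le_rfl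
  simp only [Real.sqrt_zero, mul_zero, zero_mul, Real.cosh_zero, Real.log_one, integral_zero,
    sub_zero, one_pow, mul_one, add_zero] at hU
  have e : dfe n = n * Real.log 2 + ((n : ℝ) - 1) / 4 - meanLogZ n 1 := by
    have : ∫ g, fe n g ∂gp (Pair n) = meanLogZ n 1 - ann n := by
      simp only [fe]
      rw [integral_sub (integrable_lse _) (integrable_const _)]
      simp [meanLogZ, EL, cv]
    rw [dfe, this, ann]; ring
  rw [e] at hd
  have h : (n : ℝ) * t * Qmean n 1 ≤ n * t * t := by nlinarith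
  exact (le_of_mul_le_mul_left h (by positivity)).trans htη

/-- The finite-volume lower bound. -/
theorem variance_lower (hn : 1 ≤ n) {β : ℝ} (hβ : 1 ≤ β) (J : ℕ) :
    ∑ j ∈ range J, β ^ (2 * (j + 3)) / (2 * (j + 3 : ℝ)) *
        (max 0 ((Fintype.card (Tup n j) : ℝ) / (n : ℝ) ^ (j + 3)
          - (j + 2 : ℝ) * (2 * (j + 3 : ℝ)) ^ (j + 2)
            * ((1 - 1 / β + Qmean n 1)
              + (1 - (Fintype.card (Tup n j) : ℝ) / (n : ℝ) ^ (j + 3))))) ^ 2
      ≤ variance (lse (hv n (β / Real.sqrt n))) (gp (Pair n)) := by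
  have hn' : (0 : ℝ) < n := by exact_mod_cast hn
  have hβ0 : 0 ≤ β := by linarith
  set c := β / Real.sqrt n with hc
  set u : ℕ → ℝ := fun j => (Fintype.card (Tup n j) : ℝ) / (n : ℝ) ^ (j + 3)
    - (j + 2 : ℝ) * (2 * (j + 3 : ℝ)) ^ (j + 2) * ((1 - 1 / β + Qmean n 1)
      + (1 - (Fintype.card (Tup n j) : ℝ) / (n : ℝ) ^ (j + 3))) with hu
  set a : ℕ → ℝ := fun j => c ^ (j + 3) * max 0 (u j) / (2 * (j + 3 : ℝ)) with ha
  have gL := growth_lse (hv n c)
  refine le_trans ?_ (variance_ge gL (growth_stat n J a) (stat_mean n J a))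
  refine le_trans ?_ (sub_le_sub le_rfl (stat_sq n J a))
  have e : ∫ g, lse (hv n c) g * stat n J a g ∂gp (Pair n)
      = ∑ j ∈ range J, a j * ∫ g, lse (hv n c) g * cyc n j g ∂gp (Pair n) := by
    simp only [stat, mul_sum]
    rw [integral_finsetSum _ fun j _ =>
      (gL.mul ((growth_const (a j)).mul (growth_cyc n j))).integrable]
    refine sum_congr rfl fun j _ => ?_
    rw [← integral_const_mul]
    exact integral_congr_ae (ae_of_all _ fun g => by ring)
  rw [e, mul_sum, ← sum_sub_distrib]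
  refine sum_le_sum fun j _ => ?_
  have hc0 : 0 ≤ c := div_nonneg hβ0 (Real.sqrt_nonneg _)
  have hp : 0 ≤ c ^ (j + 3) := pow_nonneg hc0 _
  have hP : c ^ (j + 3) * (n : ℝ) ^ (j + 3) * u j
      ≤ ∫ g, lse (hv n c) g * cyc n j g ∂gp (Pair n) := by
    refine le_trans ?_ (proj_ge hn hβ0 j)
    rw [mul_assoc]
    refine mul_le_mul_of_nonneg_left ?_ hp
    set W : ℝ := (j + 2 : ℝ) * (2 * (j + 3 : ℝ)) ^ (j + 2)
    have hW : 0 ≤ W := by positivity
    have eW : ((j + 2 : ℕ) : ℝ) * (2 * (1 + (j + 2 : ℕ) : ℝ)) ^ (j + 2) = W := by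
      simp only [W]; push_cast; ring_nf
    rw [eW]
    have hQ := mul_le_mul_of_nonneg_left (Qmean_le_crit hn hβ)
      (mul_nonneg hW (show 0 ≤ (n : ℝ) ^ (j + 3) by positivity))
    have eu : (n : ℝ) ^ (j + 3) * u j = (Fintype.card (Tup n j) : ℝ) - W * ((n : ℝ) ^ (j + 3)
        * (1 - 1 / β + Qmean n 1) + ((n : ℝ) ^ (j + 3) - Fintype.card (Tup n j))) := by
      simp only [hu, W]; field_simp
    rw [eu]
    linarith
  have ha0 : 0 ≤ a j := by
    simp only [ha]; exact div_nonneg (mul_nonneg hp (le_max_left _ _)) (by positivity)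
  have hcc : c ^ (j + 3) * c ^ (j + 3) * (n : ℝ) ^ (j + 3) = β ^ (2 * (j + 3)) := by
    rw [← mul_pow, ← mul_pow, pow_mul]
    congr 1
    rw [hc, div_mul_div_comm, Real.mul_self_sqrt hn'.le]
    field_simp
  have hmax : max 0 (u j) * u j = max 0 (u j) ^ 2 := by
    rcases le_total 0 (u j) with h | h
    · rw [max_eq_right h, pow_two]
    · rw [max_eq_left h]; ring
  have h2 := mul_le_mul_of_nonneg_left hP ha0
  have e1 : a j * (c ^ (j + 3) * (n : ℝ) ^ (j + 3) * u j)
      = β ^ (2 * (j + 3)) / (2 * (j + 3 : ℝ)) * max 0 (u j) ^ 2 := by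
    simp only [ha]
    rw [← hmax, ← hcc]
    ring
  have e2 : a j ^ 2 * (2 * (j + 3 : ℝ) * (n : ℝ) ^ (j + 3))
      = β ^ (2 * (j + 3)) / (2 * (j + 3 : ℝ)) * max 0 (u j) ^ 2 := by
    simp only [ha]
    rw [← hcc]
    field_simp
  have e3 : max 0 (u j) ^ 2 = max 0 ((Fintype.card (Tup n j) : ℝ) / (n : ℝ) ^ (j + 3)
      - (j + 2 : ℝ) * (2 * (j + 3 : ℝ)) ^ (j + 2) * ((1 - 1 / β + Qmean n 1)
        + (1 - (Fintype.card (Tup n j) : ℝ) / (n : ℝ) ^ (j + 3)))) ^ 2 := rfl
  rw [← e3, e2]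
  rw [e1] at h2
  linarith

theorem density_tendsto (j : ℕ) :
    Tendsto (fun n : ℕ => (Fintype.card (Tup n j) : ℝ) / (n : ℝ) ^ (j + 3)) atTop (𝓝 1) := by
  have h : Tendsto (fun n : ℕ => (1 - (j + 3 : ℝ) / n) ^ (j + 3)) atTop (𝓝 1) := by
    simpa using ((tendsto_const_div_atTop_nhds_zero_nat (j + 3 : ℝ)).const_sub 1).pow (j + 3)
  refine tendsto_of_tendsto_of_tendsto_of_le_of_le' h tendsto_const_nhds ?_ ?_
  · filter_upwards [eventually_ge_atTop (j + 3)] with n hn
    have hn' : (0 : ℝ) < n := by exact_mod_cast (show 0 < n by omega)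
    have h1 : ((n : ℝ) - (j + 3)) ^ (j + 3) ≤ (Fintype.card (Tup n j) : ℝ) := by
      rw [card_tup]
      refine le_trans ?_ (Nat.cast_le.2 (Nat.pow_sub_le_descFactorial n (j + 3)))
      rw [Nat.cast_pow, Nat.cast_sub (by omega)]
      refine pow_le_pow_left₀ ?_ (by push_cast; linarith) _
      have : ((j + 3 : ℕ) : ℝ) ≤ n := by exact_mod_cast hn
      push_cast at this; linarith
    rw [le_div_iff₀ (by positivity), ← mul_pow]
    refine le_trans (le_of_eq ?_) h1
    congr 1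
    field_simp
  · filter_upwards [eventually_ge_atTop 1] with n hn
    have hn' : (0 : ℝ) < n := by exact_mod_cast hn
    exact div_le_one_of_le₀ (card_tup_le n j) (by positivity)

/-- The limiting lower bound. -/
theorem variance_asymp (J : ℕ) {β η : ℝ} (hβ : 1 ≤ β) (hη : 0 < η) : ∀ᶠ n : ℕ in atTop,
    (∑ j ∈ range J, β ^ (2 * (j + 3)) / (2 * (j + 3 : ℝ)) *
        (max 0 (1 - (j + 2 : ℝ) * (2 * (j + 3 : ℝ)) ^ (j + 2) * (1 - 1 / β))) ^ 2) - η
      ≤ variance (lse (hv n (β / Real.sqrt n))) (gp (Pair n)) := by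
  set G : ℝ → ℝ := fun e => ∑ j ∈ range J, β ^ (2 * (j + 3)) / (2 * (j + 3 : ℝ)) *
    (max 0 ((1 - e) - (j + 2 : ℝ) * (2 * (j + 3 : ℝ)) ^ (j + 2) * ((1 - 1 / β + e) + e))) ^ 2
  have hG : Continuous G := by simp only [G]; fun_prop
  have h0 : G 0 = ∑ j ∈ range J, β ^ (2 * (j + 3)) / (2 * (j + 3 : ℝ)) *
      (max 0 (1 - (j + 2 : ℝ) * (2 * (j + 3 : ℝ)) ^ (j + 2) * (1 - 1 / β))) ^ 2 := by
    simp [G]
  have hev : ∀ᶠ e in 𝓝[>] (0 : ℝ), G 0 - η ≤ G e :=
    eventually_nhdsWithin_of_eventually_nhds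
      ((hG.tendsto 0).eventually_const_le (show G 0 - η < G 0 by linarith))
  obtain ⟨e, he, he0⟩ := (hev.and self_mem_nhdsWithin).exists
  replace he0 : 0 < e := he0
  have hd : ∀ᶠ n : ℕ in atTop, ∀ j ∈ range J,
      1 - e ≤ (Fintype.card (Tup n j) : ℝ) / (n : ℝ) ^ (j + 3) :=
    (range J).eventually_all.2 fun j _ =>
      (density_tendsto j).eventually_const_le (show 1 - e < 1 by linarith)
  filter_upwards [Qmean_crit he0, hd, eventually_ge_atTop 1] with n hQ hd hn
  rw [← h0]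
  refine he.trans (le_trans ?_ (variance_lower hn hβ J))
  simp only [G]
  refine sum_le_sum fun j hj => ?_
  refine mul_le_mul_of_nonneg_left (pow_le_pow_left₀ (le_max_left _ _) (max_le_max le_rfl ?_) 2)
    (by positivity)
  refine sub_le_sub (hd j hj) (mul_le_mul_of_nonneg_left ?_ (by positivity))
  have := hd j hj
  linarith

/-- Divergence as the critical temperature is approached from below. -/
theorem variance_blowup (M : ℝ) : ∃ δ > 0, ∀ β ∈ Set.Icc (1 : ℝ) (1 + δ),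
    ∀ᶠ n : ℕ in atTop, M ≤ variance (lse (hv n (β / Real.sqrt n))) (gp (Pair n)) := by
  obtain ⟨J, hJ⟩ :=
    (Real.tendsto_sum_range_one_div_nat_succ_atTop.eventually_ge_atTop (24 * (M + 1))).exists
  set S := ∑ j ∈ range J, (j + 2 : ℝ) * (2 * (j + 3 : ℝ)) ^ (j + 2)
  have hS : 0 ≤ S := sum_nonneg fun j _ => by positivity
  refine ⟨1 / (2 * (1 + S)), by positivity, fun β hβ => ?_⟩
  obtain ⟨h1, h2⟩ := hβ
  have hβ0 : 0 < β := by linarith
  filter_upwards [variance_asymp J h1 one_pos] with n hn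
  refine le_trans ?_ hn
  rw [le_sub_iff_add_le]
  have key : ∀ j ∈ range J, 1 / ((j : ℝ) + 1) / 24 ≤ β ^ (2 * (j + 3)) / (2 * (j + 3 : ℝ)) *
      (max 0 (1 - (j + 2 : ℝ) * (2 * (j + 3 : ℝ)) ^ (j + 2) * (1 - 1 / β))) ^ 2 := fun j hj => by
    have hW : (j + 2 : ℝ) * (2 * (j + 3 : ℝ)) ^ (j + 2) ≤ S :=
      single_le_sum (f := fun j : ℕ => (j + 2 : ℝ) * (2 * (j + 3 : ℝ)) ^ (j + 2))
        (fun i _ => by positivity) hj
    have hb : 1 - 1 / β ≤ 1 / (2 * (1 + S)) := by
      rw [one_sub_div hβ0.ne']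
      exact (div_le_self (by linarith) h1).trans (by linarith)
    have hb0 : 0 ≤ 1 - 1 / β := by rw [sub_nonneg, div_le_one hβ0]; exact h1
    have hh : (j + 2 : ℝ) * (2 * (j + 3 : ℝ)) ^ (j + 2) * (1 - 1 / β) ≤ 1 / 2 := by
      refine (mul_le_mul hW hb hb0 hS).trans ?_
      rw [mul_one_div, div_le_iff₀ (by positivity)]
      linarith
    have hm : (1 / 2 : ℝ) ^ 2 ≤
        (max 0 (1 - (j + 2 : ℝ) * (2 * (j + 3 : ℝ)) ^ (j + 2) * (1 - 1 / β))) ^ 2 :=
      pow_le_pow_left₀ (by norm_num) (le_max_of_le_right (by linarith)) 2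
    refine le_trans ?_ (mul_le_mul (div_le_div_of_nonneg_right (one_le_pow₀ h1) (by positivity)) hm
      (by positivity) (by positivity))
    have hj : (0 : ℝ) ≤ j := Nat.cast_nonneg j
    rw [div_div, div_mul_eq_mul_div, div_le_div_iff₀ (by positivity) (by positivity)]
    linarith
  refine le_trans ?_ (sum_le_sum key)
  rw [← sum_div, le_div_iff₀ (by norm_num)]
  linarith

end Vale.Agent.P146
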